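import Mathlib
import Vale.Agent.P074.Defs
import Vale.Agent.P074.Bridge
import Vale.Agent.P074.Example

/-!
The stability exponent of quadratic optimal transport maps equals one third and is attained.
-/

open MeasureTheory Set
open scoped ENNReal NNReal

namespace Vale.Agent.Results.P074.StabilityExponentOneThird

open Vale.Agent.P074

theorem result (d : ℕ) (hd : 2 ≤ d) :
    (∀ (K Y : Set (EuclideanSpace ℝ (Fin d))) (μ : Measure (EuclideanSpace ℝ (Fin d))),
      IsCompact K → Convex ℝ K → (interior K).Nonempty → IsCompact Y →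
        IsProbabilityMeasure μ → μ Yᶜ = 0 →
          (∃ T, IsOTMap (srcMeasure K) μ T) ∧
            ∀ T S, IsOTMap (srcMeasure K) μ T → IsOTMap (srcMeasure K) μ S →
              T =ᵐ[srcMeasure K] S) ∧
      IsGreatest {α : ℝ | Admissible d α} (1 / 3) ∧
      ¬ Admissible d (1 / 2) := by
  refine ⟨fun K Y μ hK hKc hKi hY hμp hμ => ⟨exists_ot (by omega) hK hKc hKi hY μ hμ,
    fun T S hT hS => ot_unique (by omega) hK hKc hKi hY μ hμ hT hS⟩,
    ⟨admissible_third (by omega), fun α hα => le_third hd hα⟩, fun h => ?_⟩
  have := le_third hd h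
  norm_num at this

end Vale.Agent.Results.P074.StabilityExponentOneThird
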